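import Mathlib

/-!
# The two-weight shift inequality

`r` is a reflexive antisymmetric relation (closed arcs of an oriented graph). For relations `P`, `U`
(given by their rows) which are optimal in rows, resp. in columns, the left interior of `P` and the
closed right neighbourhood of `U` are at least as good as `P` and `U`.
-/

namespace Vale.Agent.P038.H611

open Finset

variable {V : Type*} [Fintype V]

/-- The weight of a set. -/
noncomputable def W (v : V → ℝ) (Z : Finset V) : ℝ := ∑ x ∈ Z, v x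

open Classical in
/-- The closed out-neighbourhood. -/
noncomputable def nb (r : V → V → Prop) (Z : Finset V) : Finset V :=
  univ.filter fun y => ∃ z ∈ Z, r z y

open Classical in
/-- The in-interior: all vertices whose closed in-neighbourhood lies in `Z`. -/
noncomputable def ji (r : V → V → Prop) (Z : Finset V) : Finset V :=
  univ.filter fun a => ∀ b, r b a → b ∈ Z

open Classical in
/-- A column of a relation. -/
noncomputable def col (P : V → Finset V) (x : V) : Finset V :=
  univ.filter fun a => x ∈ P a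

open Classical in
/-- The rows of the left interior. -/
noncomputable def jr (r : V → V → Prop) (P : V → Finset V) (a : V) : Finset V :=
  univ.filter fun x => ∀ b, r b a → x ∈ P b

open Classical in
/-- The columns of the right neighbourhood. -/
noncomputable def ec (r : V → V → Prop) (U : V → Finset V) (x : V) : Finset V :=
  univ.filter fun a => ∃ y, r y x ∧ y ∈ U a

theorem mem_nb {r : V → V → Prop} {Z : Finset V} {y : V} : y ∈ nb r Z ↔ ∃ z ∈ Z, r z y := by
  classical
  simp [nb]

theorem mem_ji {r : V → V → Prop} {Z : Finset V} {a : V} : a ∈ ji r Z ↔ ∀ b, r b a → b ∈ Z := by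
  classical
  simp [ji]

theorem mem_col {P : V → Finset V} {x a : V} : a ∈ col P x ↔ x ∈ P a := by
  classical
  simp [col]

theorem mem_jr {r : V → V → Prop} {P : V → Finset V} {a x : V} :
    x ∈ jr r P a ↔ ∀ b, r b a → x ∈ P b := by
  classical
  simp [jr]

theorem mem_ec {r : V → V → Prop} {U : V → Finset V} {x a : V} :
    a ∈ ec r U x ↔ ∃ y, r y x ∧ y ∈ U a := by
  classical
  simp [ec]

/-- The outer boundary weight of a set. -/
noncomputable def g (r : V → V → Prop) (v : V → ℝ) (Z : Finset V) : ℝ := W v (nb r Z) - W v Z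

/-- The inner boundary weight of a set. -/
noncomputable def g2 (r : V → V → Prop) (w : V → ℝ) (Z : Finset V) : ℝ := W w Z - W w (ji r Z)

theorem W_mono {w : V → ℝ} (hw : ∀ v, 0 ≤ w v) {S T : Finset V} (h : S ⊆ T) : W w S ≤ W w T :=
  Finset.sum_le_sum_of_subset_of_nonneg h fun v _ _ => hw v

theorem W_union_inter [DecidableEq V] (w : V → ℝ) (S T : Finset V) :
    W w (S ∪ T) + W w (S ∩ T) = W w S + W w T :=
  Finset.sum_union_inter

theorem g_submod [DecidableEq V] (r : V → V → Prop) {v : V → ℝ} (hv : ∀ x, 0 ≤ v x)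
    (S T : Finset V) : g r v (S ∪ T) + g r v (S ∩ T) ≤ g r v S + g r v T := by
  have h1 := W_union_inter v S T
  have h2 := W_union_inter v (nb r S) (nb r T)
  have h3 : nb r (S ∪ T) ⊆ nb r S ∪ nb r T := by
    intro y hy
    rw [mem_nb] at hy
    obtain ⟨z, hz, hr⟩ := hy
    rw [Finset.mem_union, mem_nb, mem_nb]
    rcases Finset.mem_union.1 hz with h | h
    · exact Or.inl ⟨z, h, hr⟩
    · exact Or.inr ⟨z, h, hr⟩
  have h4 : nb r (S ∩ T) ⊆ nb r S ∩ nb r T := by
    intro y hy
    rw [mem_nb] at hy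
    obtain ⟨z, hz, hr⟩ := hy
    rw [Finset.mem_inter, mem_nb, mem_nb]
    exact ⟨⟨z, (Finset.mem_inter.1 hz).1, hr⟩, ⟨z, (Finset.mem_inter.1 hz).2, hr⟩⟩
  have h5 := W_mono hv h3
  have h6 := W_mono hv h4
  unfold g
  linarith

theorem g2_submod [DecidableEq V] (r : V → V → Prop) {w : V → ℝ} (hw : ∀ x, 0 ≤ w x)
    (S T : Finset V) : g2 r w (S ∪ T) + g2 r w (S ∩ T) ≤ g2 r w S + g2 r w T := by
  have h1 := W_union_inter w S T
  have h2 := W_union_inter w (ji r S) (ji r T)
  have h3 : ji r S ∪ ji r T ⊆ ji r (S ∪ T) := by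
    intro y hy
    rw [mem_ji]
    intro b hb
    rcases Finset.mem_union.1 hy with h | h
    · exact Finset.mem_union_left _ (mem_ji.1 h b hb)
    · exact Finset.mem_union_right _ (mem_ji.1 h b hb)
  have h4 : ji r S ∩ ji r T ⊆ ji r (S ∩ T) := by
    intro y hy
    rw [mem_ji]
    intro b hb
    have := Finset.mem_inter.1 hy
    exact Finset.mem_inter.2 ⟨mem_ji.1 this.1 b hb, mem_ji.1 this.2 b hb⟩
  have h5 := W_mono hw h3
  have h6 := W_mono hw h4
  unfold g2
  linarith

/-- Lemma B: rows of the left interior. -/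
theorem lemmaB (r : V → V → Prop) {v : V → ℝ} (hv : ∀ x, 0 ≤ v x) {P P' U : V → Finset V}
    (hO1 : ∀ a Z, P a ⊆ Z → (∀ x ∈ Z, x ≠ a → x ∈ U a) → g r v (P a) ≤ g r v Z)
    (hPU : ∀ a x, x ∈ P a → x ≠ a → x ∈ U a)
    (hPP' : ∀ a, P a ⊆ P' a) (hP'U : ∀ a x, x ∈ P' a → x ≠ a → x ∈ U a) (a : V) :
    g r v (jr r P a) ≤ g r v (jr r P' a) := by
  classical
  set Z := jr r P' a with hZ
  have key : ∀ S : Finset V, (∀ b ∈ S, r b a) →
      g r v (Z.filter fun x => ∀ b ∈ S, x ∈ P b) ≤ g r v Z := by
    intro S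
    induction S using Finset.induction_on with
    | empty =>
      intro _
      simp
    | insert b S hb ih =>
      intro hS
      have ih' := ih fun c hc => hS c (Finset.mem_insert_of_mem hc)
      have hrb : r b a := hS b (Finset.mem_insert_self _ _)
      set Z1 := Z.filter fun x => ∀ b ∈ S, x ∈ P b with hZ1
      have e : (Z.filter fun x => ∀ c ∈ insert b S, x ∈ P c) = Z1 ∩ P b := by
        ext x
        simp only [hZ1, Finset.mem_filter, Finset.mem_inter, Finset.mem_insert]
        constructor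
        · rintro ⟨h1, h2⟩
          exact ⟨⟨h1, fun c hc => h2 c (Or.inr hc)⟩, h2 b (Or.inl rfl)⟩
        · rintro ⟨⟨h1, h2⟩, h3⟩
          refine ⟨h1, ?_⟩
          rintro c (rfl | hc)
          · exact h3
          · exact h2 c hc
      rw [e]
      have hsub := g_submod r hv Z1 (P b)
      have hle : g r v (P b) ≤ g r v (Z1 ∪ P b) := by
        apply hO1 b _ Finset.subset_union_right
        intro x hx hxb
        rcases Finset.mem_union.1 hx with h | h
        · have h1 : x ∈ Z := (Finset.mem_filter.1 h).1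
          exact hP'U b x (mem_jr.1 (hZ ▸ h1) b hrb) hxb
        · exact hPU b x h hxb
      linarith
  have e : jr r P a = Z.filter fun x => ∀ b ∈ (univ.filter fun b => r b a), x ∈ P b := by
    ext x
    simp only [Finset.mem_filter, Finset.mem_univ, true_and, hZ, mem_jr]
    constructor
    · intro h
      exact ⟨fun b hb => hPP' b (h b hb), h⟩
    · exact fun h => h.2
  rw [e]
  exact key _ fun b hb => (Finset.mem_filter.1 hb).2

theorem swap (w v : V → ℝ) (M : V → Finset V) :
    ∑ a, w a * W v (M a) = ∑ x, v x * W w (col M x) := by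
  classical
  have h1 : ∀ a, w a * W v (M a) = ∑ x, if x ∈ M a then w a * v x else 0 := by
    intro a
    unfold W
    rw [Finset.mul_sum, ← Finset.sum_filter]
    congr 1
    ext x
    simp
  have h2 : ∀ x, v x * W w (col M x) = ∑ a, if x ∈ M a then w a * v x else 0 := by
    intro x
    unfold W
    rw [Finset.mul_sum, ← Finset.sum_filter]
    apply Finset.sum_congr
    · ext a
      simp [mem_col]
    · intro a _
      ring
  simp_rw [h1, h2]
  exact Finset.sum_comm

/-- The coefficient of `v x` in the functional. -/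
noncomputable def phi (r : V → V → Prop) (w : V → ℝ) (P U : V → Finset V) (x : V) : ℝ :=
  W w (col (fun a => nb r (P a)) x) - W w (col P x) + g2 r w (col U x)
    - (W w (col (fun a => nb r (jr r P a)) x) - W w (col (jr r P) x)) - g2 r w (ec r U x)

/-- The functional. -/
noncomputable def Phi (r : V → V → Prop) (w v : V → ℝ) (P U : V → Finset V) : ℝ :=
  ∑ a, w a * g r v (P a) + ∑ x, v x * g2 r w (col U x)
    - ∑ a, w a * g r v (jr r P a) - ∑ x, v x * g2 r w (ec r U x)

theorem Phi_eq (r : V → V → Prop) (w v : V → ℝ) (P U : V → Finset V) :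
    Phi r w v P U = ∑ x, v x * phi r w P U x := by
  have h : ∀ M : V → Finset V, ∑ a, w a * g r v (M a)
      = ∑ x, v x * (W w (col (fun a => nb r (M a)) x) - W w (col M x)) := by
    intro M
    unfold g
    have e1 : ∀ a, w a * (W v (nb r (M a)) - W v (M a)) = w a * W v (nb r (M a)) - w a * W v (M a) :=
      fun a => by ring
    have e2 : ∀ x, v x * (W w (col (fun a => nb r (M a)) x) - W w (col M x))
        = v x * W w (col (fun a => nb r (M a)) x) - v x * W w (col M x) := fun a => by ring
    simp_rw [e1, e2, Finset.sum_sub_distrib]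
    rw [swap w v (fun a => nb r (M a)), swap w v M]
  unfold Phi phi
  rw [h P, h (jr r P), ← Finset.sum_add_distrib, ← Finset.sum_sub_distrib, ← Finset.sum_sub_distrib]
  apply Finset.sum_congr rfl
  intro x _
  ring

theorem W_insert [DecidableEq V] (w : V → ℝ) {y : V} {S : Finset V} (h : y ∉ S) :
    W w (insert y S) = w y + W w S :=
  Finset.sum_insert h

/-- Lemma C: a column without gap has a nonnegative coefficient. -/
theorem lemmaC (r : V → V → Prop) (hrefl : ∀ a, r a a) {w : V → ℝ} (hw : ∀ x, 0 ≤ w x)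
    {P U : V → Finset V} (hAP : ∀ a x, r a x → x ∈ P a) (hUA : ∀ a x, x ∈ U a → ¬ r x a)
    (hPU : ∀ a x, x ∈ P a → x ≠ a → x ∈ U a)
    (hO2 : ∀ x Z, (∀ a, x ∈ P a → a ≠ x → a ∈ Z) → (∀ a ∈ Z, x ∈ U a) →
      g2 r w (col U x) ≤ g2 r w Z)
    (y : V) (hgap : ∀ a, y ∈ U a → y ∈ P a) : 0 ≤ phi r w P U y := by
  classical
  have fact : ∀ a b, b ∈ P a → b ≠ a → ¬ r b a := fun a b h1 h2 => hUA a b (hPU a b h1 h2)
  set ZU := ec r U y with hZU
  set ZP := (col (fun a => nb r (P a)) y).erase y with hZP
  have mZP : ∀ a, a ∈ ZP ↔ a ≠ y ∧ ∃ z ∈ P a, r z y := by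
    intro a
    rw [hZP, Finset.mem_erase, mem_col, mem_nb]
  have h1 : W w (col P y) = w y + W w (col U y) := by
    have hy : y ∉ col U y := by
      rw [mem_col]
      exact fun h => hUA y y h (hrefl y)
    rw [← W_insert w hy]
    congr 1
    ext a
    rw [Finset.mem_insert, mem_col, mem_col]
    constructor
    · intro h
      by_cases hay : a = y
      · exact Or.inl hay
      · exact Or.inr (hPU a y h (Ne.symm hay))
    · rintro (rfl | h)
      · exact hAP _ _ (hrefl _)
      · exact hgap a h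
  have h2 : W w (col (jr r P) y) = w y + W w (ji r (col U y)) := by
    have hy : y ∉ ji r (col U y) := by
      rw [mem_ji]
      intro h
      exact hUA y y (mem_col.1 (h y (hrefl y))) (hrefl y)
    rw [← W_insert w hy]
    congr 1
    ext a
    rw [Finset.mem_insert, mem_col, mem_jr, mem_ji]
    constructor
    · intro h
      by_cases hay : a = y
      · exact Or.inl hay
      · refine Or.inr fun b hb => ?_
        rw [mem_col]
        refine hPU b y (h b hb) ?_
        rintro rfl
        exact fact a y (h a (hrefl a)) (Ne.symm hay) hb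
    · rintro (rfl | h)
      · exact fun b hb => hAP _ _ hb
      · exact fun b hb => hgap b (mem_col.1 (h b hb))
  have h3 : W w (col (fun a => nb r (P a)) y) = w y + W w ZP := by
    have hy : y ∈ col (fun a => nb r (P a)) y := by
      rw [mem_col, mem_nb]
      exact ⟨y, hAP y y (hrefl y), hrefl y⟩
    rw [hZP, ← W_insert w (Finset.notMem_erase _ _), Finset.insert_erase hy]
  have h5 : W w (col (fun a => nb r (jr r P a)) y) ≤ w y + W w (ji r ZP) := by
    have hyj : y ∉ ji r ZP := by
      rw [mem_ji]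
      intro h
      exact ((mZP y).1 (h y (hrefl y))).1 rfl
    rw [← W_insert w hyj]
    apply W_mono hw
    intro a ha
    rw [mem_col, mem_nb] at ha
    obtain ⟨z, hz, hzy⟩ := ha
    rw [Finset.mem_insert]
    by_cases hay : a = y
    · exact Or.inl hay
    refine Or.inr (mem_ji.2 fun b hb => (mZP b).2 ⟨?_, z, mem_jr.1 hz b hb, hzy⟩)
    rintro rfl
    by_cases hzb : z = b
    · subst hzb
      exact fact a z (mem_jr.1 hz a (hrefl a)) (Ne.symm hay) hb
    · exact fact b z (mem_jr.1 hz b hb) hzb hzy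
  have h6 : g2 r w ZU ≤ g2 r w ZP := by
    have key : ∀ S : Finset V, (∀ b ∈ S, r b y) →
        g2 r w (ZP ∪ S.biUnion fun b => col U b) ≤ g2 r w ZP := by
      intro S
      induction S using Finset.induction_on with
      | empty =>
        intro _
        simp
      | insert b S hb ih =>
        intro hS
        have ih' := ih fun c hc => hS c (Finset.mem_insert_of_mem hc)
        have hrb : r b y := hS b (Finset.mem_insert_self _ _)
        set Z1 := ZP ∪ S.biUnion fun b => col U b with hZ1
        have e : (ZP ∪ (insert b S).biUnion fun b => col U b) = Z1 ∪ col U b := by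
          rw [Finset.biUnion_insert, hZ1]
          ext x
          simp only [Finset.mem_union]
          tauto
        rw [e]
        have hsub := g2_submod r hw Z1 (col U b)
        have hle : g2 r w (col U b) ≤ g2 r w (Z1 ∩ col U b) := by
          apply hO2 b
          · intro a ha hab
            rw [Finset.mem_inter]
            refine ⟨Finset.mem_union_left _ ((mZP a).2 ⟨?_, b, ha, hrb⟩),
              mem_col.2 (hPU a b ha (Ne.symm hab))⟩
            rintro rfl
            exact fact a b ha (Ne.symm hab) hrb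
          · intro a ha
            exact mem_col.1 (Finset.mem_inter.1 ha).2
        linarith
    have e : ZU = ZP ∪ (univ.filter fun b => r b y).biUnion fun b => col U b := by
      ext a
      simp only [Finset.mem_union, Finset.mem_biUnion, Finset.mem_filter, Finset.mem_univ, true_and,
        hZU, mem_ec, mem_col, mZP]
      constructor
      · rintro ⟨z, hz, hza⟩
        exact Or.inr ⟨z, hz, hza⟩
      · rintro (⟨hay, z, hz, hzy⟩ | ⟨z, hz, hza⟩)
        · by_cases hza : z = a
          · subst hza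
            exact ⟨y, hrefl y, hPU z y (hAP z y hzy) (Ne.symm hay)⟩
          · exact ⟨z, hzy, hPU a z hz hza⟩
        · exact ⟨z, hz, hza⟩
    rw [e]
    exact key _ fun b hb => (Finset.mem_filter.1 hb).2
  have hg1 : g2 r w (col U y) = W w (col U y) - W w (ji r (col U y)) := rfl
  have hg2 : g2 r w ZP = W w ZP - W w (ji r ZP) := rfl
  unfold phi
  rw [h1, h2, h3, hg1]
  linarith

theorem W_mix (v : V → ℝ) (c d : ℝ) [DecidableEq V] (y : V) (Z : Finset V) :
    W (fun x => c * v x + d * (if x = y then 1 else 0)) Z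
      = c * W v Z + d * (if y ∈ Z then 1 else 0) := by
  unfold W
  rw [Finset.sum_add_distrib, ← Finset.mul_sum, ← Finset.mul_sum]
  congr 2
  rw [Finset.sum_ite_eq' Z y]

open Classical in
/-- **Theorem T** (two-weight shift inequality). -/
theorem thmT (r : V → V → Prop) (hrefl : ∀ a, r a a) {w : V → ℝ} (hw : ∀ x, 0 ≤ w x)
    {U : V → Finset V} (hUA : ∀ a x, x ∈ U a → ¬ r x a) :
    ∀ (n : ℕ) (P : V → Finset V) (v : V → ℝ), (∑ a, ((univ : Finset V).filter
        fun x => x ∈ U a ∧ x ∉ P a).card) = n →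
      (∀ x, 0 ≤ v x) → (∀ a x, r a x → x ∈ P a) →
      (∀ a x, x ∈ P a → x ≠ a → x ∈ U a) →
      (∀ a Z, P a ⊆ Z → (∀ x ∈ Z, x ≠ a → x ∈ U a) → g r v (P a) ≤ g r v Z) →
      (∀ x Z, (∀ a, x ∈ P a → a ≠ x → a ∈ Z) → (∀ a ∈ Z, x ∈ U a) →
        g2 r w (col U x) ≤ g2 r w Z) →
      0 ≤ Phi r w v P U := by
  classical
  intro n
  induction n using Nat.strong_induction_on with
  | _ n IH =>
  intro P v hn hv hAP hPU hO1 hO2
  -- the tight case
  have tight : ∀ v : V → ℝ, (∀ x, 0 ≤ v x) →
      (∀ a Z, P a ⊆ Z → (∀ x ∈ Z, x ≠ a → x ∈ U a) → g r v (P a) ≤ g r v Z) →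
      (∃ a Z, P a ⊂ Z ∧ (∀ x ∈ Z, x ≠ a → x ∈ U a) ∧ g r v Z = g r v (P a)) →
      0 ≤ Phi r w v P U := by
    rintro v hv hO1 ⟨a₀, Z, hPZ, hZU, hgZ⟩
    set P' : V → Finset V := Function.update P a₀ Z with hP'
    have hP'a : P' a₀ = Z := by rw [hP', Function.update_self]
    have hP'n : ∀ a, a ≠ a₀ → P' a = P a := fun a ha => by
      rw [hP', Function.update_of_ne ha]
    have hPP' : ∀ a, P a ⊆ P' a := by
      intro a
      by_cases ha : a = a₀
      · subst ha
        rw [hP'a]
        exact hPZ.subset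
      · rw [hP'n a ha]
    have hP'U : ∀ a x, x ∈ P' a → x ≠ a → x ∈ U a := by
      intro a x
      by_cases ha : a = a₀
      · subst ha
        rw [hP'a]
        exact hZU x
      · rw [hP'n a ha]
        exact hPU a x
    have hg : ∀ a, g r v (P' a) = g r v (P a) := by
      intro a
      by_cases ha : a = a₀
      · subst ha
        rw [hP'a]
        exact hgZ
      · rw [hP'n a ha]
    have hlt : (∑ a, ((univ : Finset V).filter fun x => x ∈ U a ∧ x ∉ P' a).card) < n := by
      rw [← hn]
      apply Finset.sum_lt_sum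
      · intro a _
        apply Finset.card_le_card
        intro x hx
        simp only [Finset.mem_filter, Finset.mem_univ, true_and] at hx ⊢
        exact ⟨hx.1, fun h => hx.2 (hPP' a h)⟩
      · refine ⟨a₀, Finset.mem_univ _, ?_⟩
        apply Finset.card_lt_card
        rw [Finset.ssubset_iff_of_subset]
        · obtain ⟨z, hz, hzP⟩ := Finset.exists_of_ssubset hPZ
          refine ⟨z, ?_, ?_⟩
          · simp only [Finset.mem_filter, Finset.mem_univ, true_and]
            refine ⟨hZU z hz ?_, hzP⟩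
            rintro rfl
            exact hzP (hAP _ _ (hrefl _))
          · simp only [Finset.mem_filter, Finset.mem_univ, true_and, not_and, not_not]
            intro _
            rw [hP'a]
            exact hz
        · intro x hx
          simp only [Finset.mem_filter, Finset.mem_univ, true_and] at hx ⊢
          exact ⟨hx.1, fun h => hx.2 (hPP' _ h)⟩
    have hPhi' : 0 ≤ Phi r w v P' U := by
      apply IH _ hlt P' v rfl hv
      · exact fun a x h => hPP' a (hAP a x h)
      · exact hP'U
      · intro a Z' h1 h2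
        rw [hg a]
        exact hO1 a Z' ((hPP' a).trans h1) h2
      · intro x Z' h1 h2
        exact hO2 x Z' (fun a h3 h4 => h1 a (hPP' a h3) h4) h2
    have hB : ∀ a, g r v (jr r P a) ≤ g r v (jr r P' a) :=
      lemmaB r hv hO1 hPU hPP' hP'U
    have h1 : ∑ a, w a * g r v (P' a) = ∑ a, w a * g r v (P a) := by simp_rw [hg]
    have h2 : ∑ a, w a * g r v (jr r P a) ≤ ∑ a, w a * g r v (jr r P' a) :=
      Finset.sum_le_sum fun a _ => mul_le_mul_of_nonneg_left (hB a) (hw a)
    unfold Phi at hPhi' ⊢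
    linarith
  by_cases htight : ∃ a Z, P a ⊂ Z ∧ (∀ x ∈ Z, x ≠ a → x ∈ U a) ∧ g r v Z = g r v (P a)
  · exact tight v hv hO1 htight
  by_contra hneg
  rw [not_le] at hneg
  -- choose the vertex with the smallest coefficient
  have hne : (univ : Finset V).Nonempty := by
    rw [Finset.univ_nonempty_iff]
    by_contra hempty
    rw [not_nonempty_iff] at hempty
    rw [Phi_eq] at hneg
    simp at hneg
  obtain ⟨y, -, hy⟩ := Finset.exists_min_image univ (phi r w P U) hne
  set S0 : ℝ := ∑ x, v x with hS0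
  have hS0n : 0 ≤ S0 := Finset.sum_nonneg fun x _ => hv x
  have hPhiy : S0 * phi r w P U y ≤ Phi r w v P U := by
    rw [Phi_eq, hS0, Finset.sum_mul]
    exact Finset.sum_le_sum fun x _ => mul_le_mul_of_nonneg_left (hy x (Finset.mem_univ _)) (hv x)
  have hphineg : phi r w P U y < 0 := by
    by_contra h
    rw [not_lt] at h
    have := mul_nonneg hS0n h
    linarith
  obtain ⟨a₁, ha₁⟩ : ∃ a, ¬ (y ∈ U a → y ∈ P a) := by
    by_contra h
    push Not at h
    exact absurd (lemmaC r hrefl hw hAP hUA hPU hO2 y h) (not_le.2 hphineg)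
  rw [Classical.not_imp] at ha₁
  -- the candidates
  set I : Finset (V × Finset V) := univ.filter fun i => P i.1 ⊂ i.2 ∧ ∀ x ∈ i.2, x ≠ i.1 → x ∈ U i.1
    with hI
  have mI : ∀ i : V × Finset V, i ∈ I ↔ P i.1 ⊂ i.2 ∧ ∀ x ∈ i.2, x ≠ i.1 → x ∈ U i.1 := by
    intro i
    simp [hI]
  set c0 : V × Finset V → ℝ := fun i => g r v i.2 - g r v (P i.1) with hc0
  set dd : Finset V → ℝ := fun Z => (if y ∈ nb r Z then (1 : ℝ) else 0) - (if y ∈ Z then 1 else 0)
    with hdd
  set c1 : V × Finset V → ℝ := fun i => S0 * (dd i.2 - dd (P i.1)) with hc1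
  have hc0pos : ∀ i ∈ I, 0 < c0 i := by
    intro i hi
    rw [mI] at hi
    have h1 : g r v (P i.1) ≤ g r v i.2 := hO1 i.1 i.2 hi.1.subset hi.2
    have h2 : g r v i.2 ≠ g r v (P i.1) := fun h => htight ⟨i.1, i.2, hi.1, hi.2, h⟩
    have h3 : g r v (P i.1) < g r v i.2 := lt_of_le_of_ne h1 (Ne.symm h2)
    simp only [hc0]
    linarith
  have hi₁ : (a₁, insert y (P a₁)) ∈ I := by
    rw [mI]
    refine ⟨Finset.ssubset_insert ha₁.2, ?_⟩
    intro x hx hxa
    rcases Finset.mem_insert.1 hx with rfl | h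
    · exact ha₁.1
    · exact hPU a₁ x h hxa
  have hc1i₁ : c1 (a₁, insert y (P a₁)) ≤ 0 := by
    simp only [hc1, hdd]
    have e1 : y ∈ nb r (insert y (P a₁)) := mem_nb.2 ⟨y, Finset.mem_insert_self _ _, hrefl y⟩
    rw [if_pos e1, if_pos (Finset.mem_insert_self _ _), if_neg ha₁.2]
    have : (0 : ℝ) ≤ if y ∈ nb r (P a₁) then (1 : ℝ) else 0 := by split_ifs <;> norm_num
    have := mul_nonneg hS0n this
    nlinarith
  set J : Finset (V × Finset V) := I.filter fun i => c1 i ≤ 0 with hJ
  have hJne : J.Nonempty := ⟨_, Finset.mem_filter.2 ⟨hi₁, hc1i₁⟩⟩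
  obtain ⟨i₀, hi₀J, hi₀⟩ := Finset.exists_min_image J (fun i => c0 i / (c0 i - c1 i)) hJne
  have hi₀I : i₀ ∈ I := (Finset.mem_filter.1 hi₀J).1
  have hi₀c : c1 i₀ ≤ 0 := (Finset.mem_filter.1 hi₀J).2
  set s : ℝ := c0 i₀ / (c0 i₀ - c1 i₀) with hs
  have hden : ∀ i ∈ J, 0 < c0 i - c1 i := by
    intro i hi
    have h1 := hc0pos i (Finset.mem_filter.1 hi).1
    have h2 := (Finset.mem_filter.1 hi).2
    linarith
  have hs0 : 0 ≤ s := div_nonneg (hc0pos i₀ hi₀I).le (hden i₀ hi₀J).le
  have hs1 : s ≤ 1 := by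
    rw [hs, div_le_one (hden i₀ hi₀J)]
    linarith
  have hcs : ∀ i ∈ I, 0 ≤ (1 - s) * c0 i + s * c1 i := by
    intro i hi
    by_cases hci : c1 i ≤ 0
    · have hiJ : i ∈ J := Finset.mem_filter.2 ⟨hi, hci⟩
      have h1 := hi₀ i hiJ
      have h2 : s * (c0 i - c1 i) ≤ c0 i := (le_div_iff₀ (hden i hiJ)).1 h1
      linarith
    · rw [not_le] at hci
      have h1 := mul_nonneg (sub_nonneg.2 hs1) (hc0pos i hi).le
      have h2 := mul_nonneg hs0 hci.le
      linarith
  have hcs0 : (1 - s) * c0 i₀ + s * c1 i₀ = 0 := by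
    have h1 : s * (c0 i₀ - c1 i₀) = c0 i₀ := div_mul_cancel₀ _ (hden i₀ hi₀J).ne'
    linarith
  set vs : V → ℝ := fun x => (1 - s) * v x + (s * S0) * (if x = y then 1 else 0) with hvs
  have hvs0 : ∀ x, 0 ≤ vs x := by
    intro x
    simp only [hvs]
    have h1 := mul_nonneg (sub_nonneg.2 hs1) (hv x)
    have h2 : (0 : ℝ) ≤ (s * S0) * (if x = y then 1 else 0) := by
      apply mul_nonneg (mul_nonneg hs0 hS0n)
      split_ifs <;> norm_num
    linarith
  have hgs : ∀ Z, g r vs Z = (1 - s) * g r v Z + (s * S0) * dd Z := by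
    intro Z
    unfold g
    rw [hvs, W_mix, W_mix]
    simp only [hdd]
    ring
  have hO1s : ∀ a Z, P a ⊆ Z → (∀ x ∈ Z, x ≠ a → x ∈ U a) → g r vs (P a) ≤ g r vs Z := by
    intro a Z h1 h2
    rcases h1.eq_or_ssubset with h | h
    · rw [h]
    · have h3 := hcs (a, Z) ((mI _).2 ⟨h, h2⟩)
      simp only [hc0, hc1] at h3
      rw [hgs, hgs]
      nlinarith
  have htights : ∃ a Z, P a ⊂ Z ∧ (∀ x ∈ Z, x ≠ a → x ∈ U a) ∧ g r vs Z = g r vs (P a) := by
    refine ⟨i₀.1, i₀.2, ((mI _).1 hi₀I).1, ((mI _).1 hi₀I).2, ?_⟩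
    have h3 := hcs0
    simp only [hc0, hc1] at h3
    rw [hgs, hgs]
    nlinarith
  have hfin := tight vs hvs0 hO1s htights
  have hPhis : Phi r w vs P U = (1 - s) * Phi r w v P U + s * (S0 * phi r w P U y) := by
    rw [Phi_eq, Phi_eq, Finset.mul_sum]
    have : ∀ x, vs x * phi r w P U x = (1 - s) * (v x * phi r w P U x)
        + (if x = y then s * (S0 * phi r w P U y) else 0) := by
      intro x
      simp only [hvs]
      split_ifs with hx
      · subst hx
        ring
      · ring
    simp_rw [this, Finset.sum_add_distrib]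
    congr 1
    simp
  rw [hPhis] at hfin
  have h1 : s * (S0 * phi r w P U y) ≤ s * Phi r w v P U := mul_le_mul_of_nonneg_left hPhiy hs0
  linarith

end Vale.Agent.P038.H611
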